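import Vale.Agent.P263.LZ.Cert

namespace Vale.Agent.P263.LZ

def cert3 : List (List (ℕ × ℕ)) := [
  [(3, 4), (3, 3), (2, 2), (3, 1)],
  [(3, 4), (2, 2), (3, 2), (2, 1), (3, 1), (3, 0)],
  [(3, 4), (2, 3), (3, 2)],
  [(3, 4), (2, 3), (2, 1), (3, 0)],
  [(3, 4), (3, 3), (1, 1), (3, 1), (2, 0), (3, 0)],
  [(3, 4), (2, 2), (3, 2), (1, 1), (2, 0), (3, 0)],
  [(3, 4), (2, 2), (1, 1), (2, 1), (3, 1), (2, 0)],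
  [(3, 4), (1, 2), (3, 2), (2, 1), (3, 1)],
  [(3, 4), (1, 2), (2, 2), (3, 1), (3, 0)],
  [(3, 4), (1, 2), (2, 2), (2, 1)],
  [(3, 4), (1, 2), (3, 2), (1, 1), (2, 0)],
  [(3, 3), (1, 2), (2, 2), (3, 2), (1, 1), (3, 1), (2, 0)],
  [(2, 3), (3, 3), (1, 2), (1, 1), (2, 0)],
  [(2, 3), (1, 2), (2, 2), (1, 1), (3, 1), (2, 0)],
  [(3, 4), (1, 3), (3, 1)],
  [(1, 3), (2, 2), (3, 2), (1, 1), (2, 1), (2, 0)],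
  [(1, 3), (1, 2), (3, 2), (1, 1), (3, 1), (2, 0)],
  [(2, 3), (2, 2), (3, 2), (0, 1), (2, 1), (1, 0), (2, 0)],
  [(3, 3), (1, 2), (3, 2), (0, 1), (2, 1), (3, 1), (1, 0), (2, 0), (3, 0)],
  [(3, 3), (1, 2), (2, 2), (3, 2), (0, 1), (1, 0), (2, 0)],
  [(3, 3), (1, 2), (2, 2), (0, 1), (2, 1), (1, 0), (2, 0), (3, 0)],
  [(2, 3), (1, 2), (3, 2), (0, 1), (3, 1), (1, 0), (2, 0)],
  [(2, 3), (1, 2), (0, 1), (2, 1), (3, 1), (1, 0), (2, 0), (3, 0)],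
  [(3, 3), (1, 2), (3, 2), (0, 1), (1, 1), (2, 1), (1, 0), (3, 0)],
  [(3, 3), (1, 2), (2, 2), (0, 1), (1, 1), (3, 1), (1, 0)],
  [(2, 3), (1, 2), (3, 2), (0, 1), (1, 1), (1, 0)],
  [(2, 3), (1, 2), (0, 1), (1, 1), (2, 1), (1, 0), (3, 0)],
  [(1, 3), (3, 3), (0, 1), (3, 1), (1, 0), (2, 0), (3, 0)],
  [(1, 3), (1, 2), (0, 1), (2, 1), (1, 0), (2, 0), (3, 0)],
  [(1, 3), (1, 2), (0, 1), (1, 1), (3, 1), (1, 0)],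
  [(2, 3), (0, 2), (2, 2), (2, 1), (3, 1), (2, 0)],
  [(2, 3), (0, 2), (2, 2), (1, 1), (3, 1), (3, 0)],
  [(3, 3), (0, 2), (1, 2), (3, 2), (2, 1), (2, 0), (3, 0)],
  [(2, 3), (0, 2), (1, 2), (2, 1), (2, 0), (3, 0)],
  [(3, 3), (0, 2), (1, 2), (1, 1), (2, 1), (3, 1), (3, 0)],
  [(0, 2), (1, 2), (2, 2), (3, 2), (1, 1), (2, 1), (3, 0)],
  [(1, 3), (0, 2), (2, 2), (2, 1), (2, 0)],
  [(1, 3), (0, 2), (2, 2), (1, 1), (3, 0)],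
  [(2, 3), (0, 2), (3, 2), (0, 1), (2, 1), (1, 0)],
  [(3, 3), (0, 2), (2, 2), (0, 1), (1, 1), (1, 0), (2, 0)],
  [(3, 3), (0, 2), (1, 2), (0, 1), (2, 1), (1, 0), (3, 0)],
  [(0, 3), (1, 2), (3, 2), (2, 1), (3, 1), (3, 0)],
  [(0, 3), (1, 2), (2, 2), (2, 1), (3, 0)]]

lemma cert3_wf : wf 3 256 cert3 = true := by decide +kernel

lemma cert3_0 : check 3 15 136 cert3 [[18, 1, 1]] = true := by decide +kernel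

lemma cert3_1 : check 3 16 128 cert3 [] = true := by decide +kernel

def cert4a : List (List (ℕ × ℕ)) := [
  [(3, 3), (4, 3), (4, 2), (3, 1), (4, 0)],
  [(3, 3), (4, 3), (3, 2), (4, 1)],
  [(4, 3), (3, 2), (4, 2), (2, 1), (3, 1), (4, 1), (3, 0)],
  [(3, 3), (4, 3), (2, 1), (3, 1), (3, 0)],
  [(3, 3), (3, 2), (4, 2), (2, 1), (3, 0), (4, 0)],
  [(4, 3), (2, 2), (3, 2), (4, 2), (4, 1), (4, 0)],
  [(3, 3), (2, 2), (4, 2), (3, 1), (4, 1)],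
  [(3, 3), (2, 2), (3, 2), (4, 1), (4, 0)],
  [(4, 3), (2, 2), (3, 2), (2, 1), (4, 1), (3, 0)],
  [(2, 3), (4, 3), (4, 2), (4, 1)],
  [(2, 3), (3, 2), (4, 2), (3, 1), (4, 0)],
  [(2, 3), (4, 2), (2, 1), (3, 1), (4, 1), (3, 0)],
  [(2, 3), (3, 2), (2, 1), (3, 1), (3, 0)],
  [(2, 3), (2, 2), (4, 2), (4, 1), (4, 0)],
  [(2, 3), (2, 2), (2, 1), (4, 1), (3, 0)],
  [(4, 3), (3, 2), (4, 2), (1, 1), (4, 1), (2, 0), (3, 0), (4, 0)],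
  [(4, 3), (3, 2), (4, 2), (1, 1), (3, 1), (2, 0), (3, 0)],
  [(3, 3), (4, 3), (1, 1), (2, 0), (3, 0), (4, 0)],
  [(3, 3), (3, 2), (1, 1), (3, 1), (2, 0), (3, 0)],
  [(4, 3), (3, 2), (4, 2), (1, 1), (2, 1), (2, 0), (4, 0)],
  [(4, 3), (3, 2), (1, 1), (2, 1), (3, 1), (4, 1), (2, 0)],
  [(4, 3), (2, 2), (1, 1), (2, 1), (3, 1), (2, 0), (4, 0)],
  [(3, 3), (2, 2), (1, 1), (2, 1), (2, 0)],
  [(2, 3), (4, 2), (1, 1), (4, 1), (2, 0), (3, 0), (4, 0)],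
  [(2, 3), (3, 2), (1, 1), (2, 0), (3, 0), (4, 0)],
  [(2, 3), (4, 2), (1, 1), (2, 1), (2, 0), (4, 0)],
  [(2, 3), (1, 1), (2, 1), (3, 1), (4, 1), (2, 0)],
  [(2, 3), (2, 2), (1, 1), (2, 0), (3, 0)],
  [(4, 3), (1, 2), (3, 2), (4, 2), (3, 0), (4, 0)],
  [(3, 3), (1, 2), (4, 2), (4, 1), (3, 0), (4, 0)],
  [(4, 3), (1, 2), (3, 2), (2, 1), (4, 1), (4, 0)],
  [(4, 3), (1, 2), (3, 2), (2, 1), (3, 1)],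
  [(3, 3), (1, 2), (4, 2), (2, 1), (4, 0)],
  [(4, 3), (1, 2), (2, 2), (3, 1), (3, 0), (4, 0)],
  [(1, 2), (2, 2), (3, 2), (4, 2), (4, 1), (3, 0)],
  [(4, 3), (1, 2), (2, 2), (2, 1), (4, 1)],
  [(2, 3), (1, 2), (2, 1), (4, 1), (4, 0)],
  [(2, 3), (1, 2), (1, 1), (2, 0), (4, 0)],
  [(1, 3), (4, 3), (4, 2), (4, 0)],
  [(1, 3), (2, 2), (2, 1), (3, 0), (4, 0)],
  [(1, 3), (4, 2), (1, 1), (2, 1), (2, 0)],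
  [(1, 3), (1, 1), (2, 1), (3, 1), (2, 0), (4, 0)],
  [(1, 3), (1, 2), (1, 1), (2, 0)],
  [(4, 3), (3, 2), (4, 2), (0, 1), (1, 0), (2, 0), (3, 0), (4, 0)],
  [(3, 3), (4, 2), (0, 1), (4, 1), (1, 0), (2, 0), (3, 0), (4, 0)],
  [(4, 3), (3, 2), (0, 1), (2, 1), (3, 1), (1, 0), (2, 0)],
  [(3, 3), (4, 2), (0, 1), (2, 1), (1, 0), (2, 0), (4, 0)],
  [(3, 3), (0, 1), (2, 1), (3, 1), (4, 1), (1, 0), (2, 0)],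
  [(4, 3), (2, 2), (0, 1), (2, 1), (4, 1), (1, 0), (2, 0)],
  [(2, 2), (3, 2), (4, 2), (0, 1), (2, 1), (1, 0), (2, 0)],
  [(2, 3), (4, 2), (0, 1), (1, 0), (2, 0), (3, 0), (4, 0)],
  [(4, 3), (4, 2), (0, 1), (1, 1), (3, 1), (4, 1), (1, 0), (3, 0)],
  [(4, 3), (3, 2), (0, 1), (1, 1), (3, 1), (1, 0), (3, 0)],
  [(3, 3), (0, 1), (1, 1), (3, 1), (4, 1), (1, 0), (3, 0)],
  [(4, 3), (4, 2), (0, 1), (1, 1), (2, 1), (3, 1), (1, 0)],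
  [(3, 3), (0, 1), (1, 1), (2, 1), (3, 1), (1, 0)],
  [(2, 3), (0, 1), (1, 1), (3, 1), (1, 0), (3, 0)],
  [(4, 3), (1, 2), (4, 2), (0, 1), (1, 0), (2, 0), (4, 0)],
  [(4, 3), (1, 2), (0, 1), (3, 1), (4, 1), (1, 0), (2, 0)],
  [(1, 2), (3, 2), (4, 2), (0, 1), (3, 1), (1, 0), (2, 0)],
  [(3, 3), (1, 2), (0, 1), (1, 0), (2, 0), (4, 0)],
  [(1, 2), (2, 2), (4, 2), (0, 1), (4, 1), (1, 0), (2, 0)],
  [(4, 3), (0, 2), (3, 2), (4, 1), (2, 0), (3, 0), (4, 0)],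
  [(4, 3), (0, 2), (4, 2), (2, 1), (4, 1), (2, 0), (4, 0)],
  [(4, 3), (0, 2), (4, 2), (1, 1), (3, 1), (3, 0)]]

lemma cert4a_wf : wf 4 448 cert4a = true := by decide +kernel

lemma cert4a_0 : check 4 13 240 cert4a [[16, 0, 0, 0]] = true := by decide +kernel

lemma cert4a_1 : check 4 14 224 cert4a [] = true := by decide +kernel

def cert4b : List (List (ℕ × ℕ)) := [
  [(3, 4), (4, 4), (4, 3), (4, 2), (3, 1), (4, 1), (4, 0)],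
  [(3, 4), (4, 4), (4, 3), (3, 2), (4, 2)],
  [(3, 4), (4, 4), (3, 3), (3, 1), (4, 1), (4, 0)],
  [(3, 4), (4, 4), (3, 3), (3, 2)],
  [(3, 4), (3, 3), (4, 3), (3, 2), (4, 2), (3, 1), (4, 0)],
  [(3, 4), (4, 4), (4, 3), (4, 2), (2, 1), (3, 0), (4, 0)],
  [(3, 4), (4, 4), (4, 3), (2, 1), (3, 1), (4, 1), (3, 0)],
  [(3, 4), (4, 4), (3, 3), (2, 1), (3, 0), (4, 0)],
  [(3, 4), (3, 3), (4, 3), (4, 2), (2, 1), (3, 1), (4, 1), (3, 0)],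
  [(3, 4), (3, 3), (4, 3), (3, 2), (2, 1), (3, 1), (3, 0)],
  [(4, 4), (3, 3), (4, 3), (2, 2), (3, 2), (4, 2), (2, 1), (3, 0)],
  [(3, 4), (3, 3), (4, 3), (2, 2), (2, 1), (4, 1), (3, 0)],
  [(3, 4), (3, 3), (2, 2), (3, 2), (4, 2), (2, 1), (3, 0)],
  [(3, 4), (3, 3), (2, 2), (3, 2), (2, 1), (3, 1), (3, 0), (4, 0)],
  [(4, 4), (2, 3), (3, 3), (4, 3), (4, 2), (3, 1), (4, 0)],
  [(4, 4), (2, 3), (3, 3), (4, 3), (3, 2), (4, 1)],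
  [(3, 4), (2, 3), (4, 3), (3, 2), (3, 1), (4, 1), (4, 0)],
  [(3, 4), (2, 3), (3, 3), (3, 2), (4, 1)],
  [(3, 4), (2, 3), (4, 3), (4, 2), (2, 1), (3, 1), (3, 0)],
  [(3, 4), (2, 3), (3, 3), (2, 1), (3, 1), (3, 0)],
  [(4, 4), (2, 3), (4, 3), (2, 2), (3, 2), (4, 2), (4, 1), (4, 0)],
  [(4, 4), (2, 3), (3, 3), (2, 2), (3, 2), (3, 1)],
  [(3, 4), (2, 3), (3, 3), (2, 2), (4, 0)],
  [(4, 4), (2, 3), (3, 3), (2, 2), (4, 2), (2, 1), (3, 0)],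
  [(4, 4), (2, 3), (3, 3), (2, 2), (2, 1), (3, 1), (3, 0), (4, 0)],
  [(2, 4), (4, 4), (4, 3), (4, 2), (4, 1)],
  [(2, 4), (3, 3), (4, 3), (4, 2), (3, 1), (4, 1), (4, 0)],
  [(2, 4), (3, 3), (4, 3), (3, 2), (4, 2)],
  [(2, 4), (3, 3), (4, 3), (2, 1), (3, 1), (4, 1), (3, 0)],
  [(2, 4), (3, 3), (4, 3), (2, 2), (4, 1), (4, 0)],
  [(2, 4), (4, 3), (2, 2), (3, 2), (4, 2), (2, 1), (3, 0)],
  [(2, 4), (4, 3), (2, 2), (3, 2), (2, 1), (3, 1), (3, 0), (4, 0)],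
  [(2, 4), (3, 3), (2, 2), (3, 2), (2, 1), (3, 0)],
  [(2, 4), (2, 3), (4, 3), (3, 2), (4, 1)],
  [(2, 4), (2, 3), (3, 2), (4, 2), (3, 1), (4, 1), (4, 0)],
  [(2, 4), (2, 3), (2, 2), (4, 2), (3, 1), (4, 1)],
  [(2, 4), (2, 3), (2, 2), (3, 2), (3, 1)],
  [(2, 4), (2, 3), (2, 2), (2, 1), (3, 1), (3, 0), (4, 0)],
  [(3, 4), (4, 4), (4, 3), (1, 1), (4, 1), (2, 0), (3, 0), (4, 0)],
  [(3, 4), (3, 3), (4, 3), (4, 2), (1, 1), (4, 1), (2, 0), (3, 0), (4, 0)],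
  [(3, 4), (3, 3), (4, 3), (3, 2), (1, 1), (2, 0), (3, 0), (4, 0)],
  [(3, 4), (3, 3), (3, 2), (4, 2), (1, 1), (3, 1), (4, 1), (2, 0), (3, 0)],
  [(4, 4), (3, 3), (4, 3), (3, 2), (4, 2), (1, 1), (2, 1), (3, 1), (2, 0)],
  [(3, 4), (3, 3), (3, 2), (4, 2), (1, 1), (2, 1), (3, 1), (2, 0)],
  [(3, 4), (3, 3), (4, 3), (2, 2), (1, 1), (2, 0), (3, 0)],
  [(3, 4), (3, 3), (2, 2), (3, 2), (1, 1), (4, 1), (2, 0), (3, 0)],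
  [(4, 4), (3, 3), (4, 3), (2, 2), (4, 2), (1, 1), (2, 1), (4, 1), (2, 0)],
  [(3, 4), (3, 3), (2, 2), (4, 2), (1, 1), (2, 1), (4, 1), (2, 0)],
  [(4, 4), (2, 3), (3, 3), (4, 3), (1, 1), (2, 0), (3, 0), (4, 0)],
  [(3, 4), (2, 3), (4, 3), (1, 1), (3, 1), (4, 1), (2, 0), (3, 0)],
  [(3, 4), (2, 3), (3, 3), (1, 1), (2, 0), (3, 0), (4, 0)],
  [(4, 4), (2, 3), (3, 3), (2, 2), (1, 1), (4, 1), (2, 0), (3, 0)],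
  [(2, 4), (4, 3), (3, 2), (4, 2), (1, 1), (3, 1), (4, 1), (2, 0), (3, 0)],
  [(2, 4), (3, 3), (4, 3), (1, 1), (4, 1), (2, 0), (3, 0), (4, 0)],
  [(2, 4), (4, 3), (2, 2), (3, 2), (1, 1), (4, 1), (2, 0), (3, 0)],
  [(2, 4), (3, 3), (2, 2), (1, 1), (2, 1), (4, 1), (2, 0)],
  [(2, 4), (2, 3), (4, 3), (1, 1), (2, 0), (3, 0), (4, 0)],
  [(2, 4), (2, 3), (4, 2), (1, 1), (3, 1), (4, 1), (2, 0), (3, 0)],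
  [(2, 4), (2, 3), (4, 2), (1, 1), (2, 1), (3, 1), (2, 0)],
  [(2, 4), (2, 3), (2, 2), (1, 1), (2, 1), (2, 0)],
  [(3, 4), (3, 3), (4, 3), (1, 2), (4, 2), (3, 0), (4, 0)],
  [(3, 4), (3, 3), (1, 2), (3, 2), (4, 2), (4, 1), (3, 0), (4, 0)],
  [(3, 4), (3, 3), (1, 2), (3, 2), (4, 2), (3, 1), (3, 0)],
  [(4, 4), (3, 3), (4, 3), (1, 2), (3, 2), (4, 2), (2, 1), (4, 0)],
  [(4, 4), (3, 3), (4, 3), (1, 2), (2, 2), (4, 2), (4, 1), (3, 0)],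
  [(3, 4), (4, 3), (1, 2), (2, 2), (3, 2), (4, 2), (3, 0)],
  [(3, 4), (3, 3), (1, 2), (2, 2), (4, 2), (4, 1), (3, 0)],
  [(3, 4), (3, 3), (1, 2), (2, 2), (3, 2), (3, 0)],
  [(4, 4), (2, 3), (3, 3), (1, 2), (4, 2), (3, 1), (3, 0)],
  [(3, 4), (2, 3), (4, 3), (1, 2), (4, 1), (3, 0), (4, 0)],
  [(3, 4), (2, 3), (4, 3), (1, 2), (3, 1), (3, 0)],
  [(4, 4), (2, 3), (3, 3), (1, 2), (4, 2), (2, 1), (4, 0)],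
  [(4, 4), (2, 3), (4, 3), (1, 2), (2, 2), (4, 2), (3, 0)],
  [(4, 4), (2, 3), (1, 2), (2, 2), (3, 2), (3, 1), (4, 1), (3, 0), (4, 0)],
  [(4, 4), (2, 3), (3, 3), (1, 2), (2, 2), (3, 0)],
  [(2, 3), (3, 3), (4, 3), (1, 2), (2, 2), (3, 2), (4, 1), (3, 0)],
  [(2, 4), (4, 3), (1, 2), (3, 2), (4, 2), (4, 1), (3, 0), (4, 0)],
  [(2, 4), (3, 3), (1, 2), (2, 2), (2, 1)],
  [(2, 4), (2, 3), (1, 2), (4, 2), (4, 1), (3, 0), (4, 0)],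
  [(2, 4), (2, 3), (1, 2), (4, 2), (2, 1), (4, 0)],
  [(4, 4), (3, 3), (4, 3), (1, 2), (3, 2), (1, 1), (3, 1), (2, 0)],
  [(3, 4), (3, 3), (1, 2), (3, 2), (1, 1), (3, 1), (2, 0)],
  [(4, 4), (3, 3), (4, 3), (1, 2), (2, 2), (1, 1), (4, 1), (2, 0)],
  [(4, 4), (3, 3), (1, 2), (2, 2), (3, 2), (4, 2), (1, 1), (2, 0)],
  [(3, 4), (3, 3), (1, 2), (2, 2), (1, 1), (4, 1), (2, 0)],
  [(4, 4), (2, 3), (1, 2), (2, 2), (3, 2), (1, 1), (4, 1), (2, 0)],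
  [(3, 4), (2, 3), (1, 2), (2, 2), (1, 1), (2, 0)],
  [(2, 4), (2, 3), (1, 2), (1, 1), (3, 1), (2, 0)],
  [(4, 4), (1, 3), (3, 3), (4, 3), (4, 2), (4, 1), (4, 0)],
  [(3, 4), (1, 3), (4, 3), (3, 2), (3, 1), (4, 1)],
  [(3, 4), (1, 3), (3, 3), (3, 2), (4, 0)],
  [(4, 4), (1, 3), (3, 3), (3, 2), (4, 2), (2, 1), (3, 0)],
  [(4, 4), (1, 3), (3, 3), (3, 2), (2, 1), (3, 1), (3, 0), (4, 0)],
  [(3, 4), (1, 3), (4, 3), (4, 2), (2, 1), (4, 1), (3, 0)],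
  [(3, 4), (1, 3), (3, 3), (2, 1), (4, 1), (3, 0)],
  [(4, 4), (1, 3), (4, 3), (2, 2), (3, 2), (4, 2), (4, 1)],
  [(4, 4), (1, 3), (3, 3), (2, 2), (4, 2), (3, 1), (4, 0)],
  [(4, 4), (1, 3), (3, 3), (2, 2), (3, 2), (4, 1)],
  [(3, 4), (1, 3), (4, 3), (2, 2), (3, 1), (4, 0)],
  [(4, 4), (1, 3), (2, 3), (3, 2), (4, 2), (4, 1), (4, 0)],
  [(1, 3), (2, 3), (3, 3), (4, 3), (4, 2), (3, 1), (4, 1)],
  [(1, 3), (2, 3), (3, 3), (4, 3), (3, 2), (4, 1), (4, 0)],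
  [(1, 3), (2, 3), (3, 3), (4, 3), (2, 1), (3, 1), (3, 0), (4, 0)],
  [(4, 4), (1, 3), (2, 3), (2, 2), (4, 2), (4, 1)],
  [(2, 4), (1, 3), (3, 2), (2, 1), (3, 1), (3, 0), (4, 0)],
  [(2, 4), (1, 3), (2, 2), (4, 2), (3, 1), (4, 0)],
  [(2, 4), (1, 3), (2, 2), (3, 2), (4, 1)],
  [(4, 4), (1, 3), (3, 3), (3, 2), (1, 1), (4, 1), (2, 0), (3, 0)],
  [(3, 4), (1, 3), (4, 3), (4, 2), (1, 1), (2, 0), (3, 0)],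
  [(3, 4), (1, 3), (3, 3), (1, 1), (2, 0), (3, 0)],
  [(1, 3), (2, 3), (3, 3), (4, 3), (1, 1), (4, 1), (2, 0), (3, 0)],
  [(1, 3), (2, 3), (3, 3), (3, 2), (1, 1), (3, 1), (2, 0), (3, 0), (4, 0)],
  [(1, 3), (2, 3), (3, 3), (2, 2), (1, 1), (4, 1), (2, 0), (3, 0), (4, 0)],
  [(2, 4), (1, 3), (4, 2), (1, 1), (3, 1), (2, 0), (3, 0), (4, 0)],
  [(2, 4), (1, 3), (3, 2), (1, 1), (2, 1), (2, 0)],
  [(2, 4), (1, 3), (2, 2), (1, 1), (2, 0), (3, 0), (4, 0)],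
  [(1, 3), (3, 3), (4, 3), (1, 2), (2, 2), (4, 2), (3, 1), (3, 0)],
  [(1, 3), (3, 3), (4, 3), (1, 2), (2, 2), (3, 2), (3, 0), (4, 0)],
  [(3, 4), (1, 3), (1, 2), (2, 2), (3, 1), (3, 0)],
  [(1, 3), (3, 3), (4, 3), (1, 2), (2, 2), (4, 2), (2, 1), (4, 0)],
  [(3, 4), (1, 3), (1, 2), (2, 2), (2, 1), (4, 0)],
  [(1, 3), (2, 3), (3, 3), (1, 2), (3, 2), (4, 1), (3, 0)],
  [(2, 4), (1, 3), (1, 2), (4, 2), (4, 1), (3, 0)],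
  [(2, 4), (1, 3), (1, 2), (3, 1), (4, 1), (3, 0), (4, 0)],
  [(3, 4), (1, 3), (1, 2), (3, 2), (1, 1), (2, 0)],
  [(1, 4), (4, 4), (4, 3), (4, 2)],
  [(1, 4), (3, 3), (3, 2), (4, 2), (3, 1), (4, 1), (4, 0)],
  [(1, 4), (3, 3), (2, 2), (4, 2), (3, 1), (4, 1)],
  [(1, 4), (3, 3), (4, 2), (1, 1), (3, 1), (4, 1), (2, 0), (3, 0)],
  [(1, 4), (2, 3), (4, 2), (1, 1), (4, 1), (2, 0), (3, 0), (4, 0)],
  [(1, 4), (2, 3), (3, 2), (1, 1), (2, 0), (3, 0), (4, 0)],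
  [(1, 4), (3, 3), (1, 2), (4, 2), (4, 1), (3, 0), (4, 0)],
  [(1, 4), (1, 2), (2, 2), (3, 2), (3, 1), (4, 1), (3, 0), (4, 0)],
  [(1, 4), (1, 2), (2, 2), (3, 2), (1, 1), (4, 1), (2, 0)],
  [(1, 4), (1, 3), (1, 2), (4, 2), (3, 0)],
  [(4, 4), (3, 3), (4, 3), (3, 2), (4, 2), (0, 1), (3, 1), (1, 0), (2, 0), (3, 0)],
  [(3, 4), (3, 3), (4, 3), (0, 1), (3, 1), (4, 1), (1, 0), (2, 0), (3, 0)],
  [(4, 4), (3, 3), (4, 3), (3, 2), (4, 2), (0, 1), (2, 1), (1, 0), (2, 0), (4, 0)],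
  [(3, 4), (3, 3), (4, 3), (0, 1), (2, 1), (4, 1), (1, 0), (2, 0), (4, 0)],
  [(4, 4), (3, 3), (4, 3), (2, 2), (4, 2), (0, 1), (4, 1), (1, 0), (2, 0), (3, 0)],
  [(4, 4), (3, 3), (4, 3), (2, 2), (3, 2), (0, 1), (1, 0), (2, 0), (3, 0)],
  [(3, 4), (3, 3), (2, 2), (4, 2), (0, 1), (4, 1), (1, 0), (2, 0), (3, 0)],
  [(3, 4), (3, 3), (2, 2), (3, 2), (0, 1), (1, 0), (2, 0), (3, 0)],
  [(4, 4), (3, 3), (2, 2), (3, 2), (0, 1), (2, 1), (3, 1), (4, 1), (1, 0), (2, 0), (4, 0)],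
  [(3, 4), (3, 3), (2, 2), (0, 1), (2, 1), (3, 1), (1, 0), (2, 0), (4, 0)],
  [(4, 4), (2, 3), (3, 3), (4, 2), (0, 1), (3, 1), (1, 0), (2, 0), (3, 0)],
  [(4, 4), (2, 3), (3, 3), (3, 2), (0, 1), (1, 0), (2, 0), (3, 0), (4, 0)],
  [(3, 4), (2, 3), (4, 3), (0, 1), (3, 1), (1, 0), (2, 0), (3, 0)],
  [(3, 4), (2, 3), (3, 2), (0, 1), (3, 1), (4, 1), (1, 0), (2, 0), (3, 0)],
  [(3, 4), (2, 3), (4, 3), (0, 1), (2, 1), (1, 0), (2, 0), (4, 0)],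
  [(3, 4), (2, 3), (3, 2), (0, 1), (2, 1), (4, 1), (1, 0), (2, 0), (4, 0)],
  [(4, 4), (2, 3), (2, 2), (3, 2), (0, 1), (3, 1), (4, 1), (1, 0), (2, 0), (3, 0), (4, 0)],
  [(4, 4), (2, 3), (2, 2), (4, 2), (0, 1), (2, 1), (3, 1), (4, 1), (1, 0), (2, 0), (4, 0)],
  [(2, 4), (4, 3), (3, 2), (4, 2), (0, 1), (3, 1), (1, 0), (2, 0), (3, 0)],
  [(2, 4), (3, 3), (3, 2), (0, 1), (3, 1), (1, 0), (2, 0), (3, 0)],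
  [(2, 4), (4, 3), (3, 2), (4, 2), (0, 1), (2, 1), (1, 0), (2, 0), (4, 0)],
  [(2, 4), (4, 3), (2, 2), (0, 1), (2, 1), (3, 1), (1, 0), (2, 0), (4, 0)],
  [(2, 4), (2, 2), (3, 2), (0, 1), (2, 1), (3, 1), (4, 1), (1, 0), (2, 0), (4, 0)],
  [(2, 4), (3, 3), (2, 2), (0, 1), (2, 1), (1, 0), (2, 0)],
  [(2, 4), (2, 3), (3, 2), (0, 1), (1, 0), (2, 0), (3, 0), (4, 0)],
  [(2, 4), (2, 3), (2, 2), (0, 1), (1, 0), (2, 0), (3, 0)],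
  [(4, 4), (3, 3), (4, 3), (3, 2), (0, 1), (1, 1), (2, 1), (3, 1), (1, 0)],
  [(3, 4), (4, 3), (3, 2), (4, 2), (0, 1), (1, 1), (2, 1), (3, 1), (1, 0)],
  [(3, 4), (3, 3), (4, 2), (0, 1), (1, 1), (2, 1), (3, 1), (4, 1), (1, 0)],
  [(3, 4), (3, 3), (3, 2), (0, 1), (1, 1), (2, 1), (3, 1), (1, 0)],
  [(4, 4), (3, 3), (4, 3), (2, 2), (0, 1), (1, 1), (2, 1), (4, 1), (1, 0)],
  [(4, 4), (3, 3), (2, 2), (3, 2), (4, 2), (0, 1), (1, 1), (2, 1), (1, 0)],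
  [(3, 4), (4, 3), (2, 2), (4, 2), (0, 1), (1, 1), (2, 1), (4, 1), (1, 0)],
  [(3, 4), (4, 3), (2, 2), (3, 2), (0, 1), (1, 1), (2, 1), (1, 0)],
  [(4, 4), (2, 3), (4, 3), (4, 2), (0, 1), (1, 1), (2, 1), (3, 1), (1, 0)],
  [(3, 4), (2, 3), (4, 2), (0, 1), (1, 1), (2, 1), (3, 1), (1, 0)],
  [(4, 4), (2, 3), (2, 2), (4, 2), (0, 1), (1, 1), (3, 1), (4, 1), (1, 0), (3, 0), (4, 0)],
  [(4, 4), (2, 3), (4, 3), (2, 2), (0, 1), (1, 1), (2, 1), (1, 0)],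
  [(2, 3), (3, 3), (4, 3), (2, 2), (4, 2), (0, 1), (1, 1), (2, 1), (1, 0)],
  [(3, 4), (2, 3), (2, 2), (0, 1), (1, 1), (2, 1), (1, 0)],
  [(2, 4), (4, 3), (4, 2), (0, 1), (1, 1), (2, 1), (3, 1), (4, 1), (1, 0)],
  [(2, 4), (3, 3), (0, 1), (1, 1), (2, 1), (3, 1), (4, 1), (1, 0)],
  [(2, 4), (3, 3), (2, 2), (0, 1), (1, 1), (1, 0), (3, 0)],
  [(2, 4), (4, 3), (2, 2), (0, 1), (1, 1), (2, 1), (4, 1), (1, 0)],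
  [(2, 4), (2, 2), (3, 2), (4, 2), (0, 1), (1, 1), (2, 1), (1, 0)],
  [(4, 4), (3, 3), (4, 3), (1, 2), (4, 2), (0, 1), (4, 1), (1, 0), (2, 0), (4, 0)],
  [(4, 4), (3, 3), (4, 3), (1, 2), (3, 2), (0, 1), (1, 0), (2, 0), (4, 0)],
  [(3, 4), (3, 3), (1, 2), (4, 2), (0, 1), (4, 1), (1, 0), (2, 0), (4, 0)],
  [(3, 4), (3, 3), (1, 2), (3, 2), (0, 1), (1, 0), (2, 0), (4, 0)],
  [(4, 4), (2, 3), (3, 3), (1, 2), (0, 1), (1, 0), (2, 0), (4, 0)],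
  [(4, 4), (2, 3), (1, 2), (2, 2), (0, 1), (3, 1), (4, 1), (1, 0), (2, 0), (4, 0)],
  [(2, 4), (3, 3), (1, 2), (0, 1), (4, 1), (1, 0), (2, 0), (4, 0)],
  [(4, 4), (3, 3), (1, 2), (2, 2), (3, 2), (0, 1), (1, 1), (1, 0)],
  [(2, 3), (3, 3), (4, 3), (1, 2), (4, 2), (0, 1), (1, 1), (3, 1), (1, 0)],
  [(3, 4), (2, 3), (1, 2), (0, 1), (1, 1), (3, 1), (1, 0)],
  [(2, 3), (3, 3), (4, 3), (1, 2), (2, 2), (0, 1), (1, 1), (1, 0)],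
  [(2, 4), (1, 2), (2, 2), (3, 2), (0, 1), (1, 1), (1, 0)],
  [(4, 4), (1, 3), (3, 3), (0, 1), (2, 1), (3, 1), (1, 0), (2, 0), (4, 0)],
  [(1, 3), (3, 3), (4, 3), (2, 2), (4, 2), (0, 1), (2, 1), (1, 0), (2, 0), (4, 0)],
  [(1, 3), (2, 3), (3, 3), (3, 2), (0, 1), (4, 1), (1, 0), (2, 0), (3, 0)],
  [(1, 3), (2, 3), (3, 3), (0, 1), (2, 1), (3, 1), (4, 1), (1, 0), (2, 0), (4, 0)],
  [(1, 3), (2, 3), (3, 3), (3, 2), (0, 1), (2, 1), (1, 0), (2, 0)],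
  [(1, 3), (2, 3), (3, 3), (2, 2), (0, 1), (1, 0), (2, 0), (3, 0), (4, 0)],
  [(1, 3), (2, 3), (2, 2), (3, 2), (4, 2), (0, 1), (2, 1), (1, 0), (2, 0), (4, 0)],
  [(2, 4), (1, 3), (0, 1), (3, 1), (4, 1), (1, 0), (2, 0), (3, 0), (4, 0)],
  [(4, 4), (1, 3), (4, 3), (4, 2), (0, 1), (1, 1), (2, 1), (4, 1), (1, 0)],
  [(4, 4), (1, 3), (4, 3), (3, 2), (0, 1), (1, 1), (2, 1), (1, 0)],
  [(4, 4), (1, 3), (3, 3), (0, 1), (1, 1), (2, 1), (4, 1), (1, 0)],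
  [(3, 4), (1, 3), (4, 2), (0, 1), (1, 1), (2, 1), (4, 1), (1, 0)],
  [(1, 3), (2, 3), (3, 3), (0, 1), (1, 1), (3, 1), (4, 1), (1, 0), (3, 0), (4, 0)],
  [(1, 3), (2, 3), (3, 3), (3, 2), (0, 1), (1, 1), (1, 0), (3, 0)],
  [(4, 4), (1, 3), (2, 3), (0, 1), (1, 1), (2, 1), (1, 0)],
  [(2, 4), (1, 3), (0, 1), (1, 1), (2, 1), (4, 1), (1, 0)],
  [(1, 3), (3, 3), (4, 3), (1, 2), (4, 2), (0, 1), (3, 1), (1, 0), (2, 0), (4, 0)],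
  [(3, 4), (1, 3), (1, 2), (0, 1), (3, 1), (1, 0), (2, 0), (4, 0)],
  [(1, 3), (3, 3), (4, 3), (1, 2), (2, 2), (0, 1), (1, 0), (2, 0), (4, 0)],
  [(1, 3), (2, 3), (1, 2), (3, 2), (4, 2), (0, 1), (3, 1), (1, 0), (2, 0), (4, 0)],
  [(1, 3), (2, 3), (1, 2), (2, 2), (4, 2), (0, 1), (4, 1), (1, 0), (2, 0), (4, 0)],
  [(1, 3), (2, 3), (1, 2), (2, 2), (3, 2), (0, 1), (1, 0), (2, 0), (4, 0)],
  [(1, 4), (4, 3), (3, 2), (0, 1), (3, 1), (4, 1), (1, 0), (2, 0), (3, 0)],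
  [(1, 4), (4, 3), (3, 2), (0, 1), (2, 1), (4, 1), (1, 0), (2, 0), (4, 0)],
  [(1, 4), (2, 2), (3, 2), (0, 1), (3, 1), (4, 1), (1, 0), (2, 0), (3, 0), (4, 0)],
  [(1, 4), (2, 2), (4, 2), (0, 1), (2, 1), (3, 1), (4, 1), (1, 0), (2, 0), (4, 0)],
  [(1, 4), (2, 3), (0, 1), (3, 1), (4, 1), (1, 0), (2, 0), (3, 0)],
  [(1, 4), (2, 2), (4, 2), (0, 1), (1, 1), (3, 1), (4, 1), (1, 0), (3, 0), (4, 0)],
  [(1, 4), (1, 2), (2, 2), (0, 1), (3, 1), (4, 1), (1, 0), (2, 0), (4, 0)],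
  [(4, 4), (3, 3), (4, 3), (0, 2), (3, 2), (2, 1), (3, 1), (2, 0)],
  [(3, 4), (3, 3), (0, 2), (3, 2), (2, 1), (3, 1), (2, 0)],
  [(4, 4), (3, 3), (4, 3), (0, 2), (2, 2), (2, 1), (4, 1), (2, 0)],
  [(3, 4), (3, 3), (0, 2), (2, 2), (2, 1), (4, 1), (2, 0)],
  [(3, 4), (2, 3), (0, 2), (2, 2), (2, 1), (2, 0)],
  [(2, 4), (2, 3), (0, 2), (2, 1), (3, 1), (2, 0)],
  [(3, 4), (3, 3), (0, 2), (3, 2), (1, 1), (4, 1), (3, 0), (4, 0)],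
  [(3, 4), (3, 3), (0, 2), (4, 2), (1, 1), (2, 1), (4, 1), (4, 0)],
  [(3, 4), (3, 3), (0, 2), (3, 2), (1, 1), (2, 1), (4, 0)],
  [(2, 4), (4, 3), (0, 2), (3, 2), (1, 1), (4, 1), (3, 0), (4, 0)],
  [(2, 4), (4, 3), (0, 2), (4, 2), (1, 1), (2, 1), (4, 1), (4, 0)],
  [(2, 4), (4, 3), (0, 2), (3, 2), (1, 1), (2, 1), (4, 0)],
  [(2, 4), (3, 3), (0, 2), (1, 1), (2, 1), (3, 1)]]

lemma cert4b_wf : wf 4 928 cert4b = true := by decide +kernel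

lemma cert4b_0 : check 4 28 480 cert4b [[32, 0, 0, 0]] = true := by decide +kernel

lemma cert4b_1 : check 4 29 464 cert4b [] = true := by decide +kernel

lemma cert4b_2 : check 4 30 448 cert4b [] = true := by decide +kernel

end Vale.Agent.P263.LZ
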